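import Vale.Agent.P219.Aff.Ten.Box

/-!
# Checked coefficient lists for the chord inequality in dimension ten
-/

namespace Vale.Agent.P219.Aff.Ten

open Vale.Agent.P219.Aff.Nine

noncomputable section

/-- The chord polynomial in the length, the sum and the product of the cosines. -/
def CS (r S p : ℝ) : ℝ :=
  (48000 : ℝ) * r ^ 0 * S ^ 1 * p ^ 1 +
    (-123360 : ℝ) * r ^ 0 * S ^ 1 * p ^ 2 +
    (-145600 : ℝ) * r ^ 0 * S ^ 1 * p ^ 3 +
    (-57344 : ℝ) * r ^ 0 * S ^ 1 * p ^ 4 +
    (41120 : ℝ) * r ^ 0 * S ^ 3 * p ^ 1 +
    (145600 : ℝ) * r ^ 0 * S ^ 3 * p ^ 2 +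
    (114688 : ℝ) * r ^ 0 * S ^ 3 * p ^ 3 +
    (-29120 : ℝ) * r ^ 0 * S ^ 5 * p ^ 1 +
    (-57344 : ℝ) * r ^ 0 * S ^ 5 * p ^ 2 +
    (8192 : ℝ) * r ^ 0 * S ^ 7 * p ^ 1 +
    (-72000 : ℝ) * r ^ 1 * S ^ 0 * p ^ 1 +
    (6000 : ℝ) * r ^ 3 * S ^ 0 * p ^ 0 +
    (-12000 : ℝ) * r ^ 3 * S ^ 0 * p ^ 1 +
    (6000 : ℝ) * r ^ 3 * S ^ 2 * p ^ 0 +
    (-18850 : ℝ) * r ^ 4 * S ^ 1 * p ^ 0 +
    (-11820 : ℝ) * r ^ 4 * S ^ 1 * p ^ 1 +
    (985 : ℝ) * r ^ 4 * S ^ 3 * p ^ 0 +
    (13280 : ℝ) * r ^ 5 * S ^ 0 * p ^ 0 +
    (30512 : ℝ) * r ^ 5 * S ^ 0 * p ^ 1 +
    (-11352 : ℝ) * r ^ 5 * S ^ 0 * p ^ 2 +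
    (582 : ℝ) * r ^ 5 * S ^ 2 * p ^ 0 +
    (1892 : ℝ) * r ^ 5 * S ^ 2 * p ^ 1 +
    (-7325 : ℝ) * r ^ 6 * S ^ 1 * p ^ 0 +
    (11158 : ℝ) * r ^ 6 * S ^ 1 * p ^ 1 +
    (-661 / 2 : ℝ) * r ^ 6 * S ^ 3 * p ^ 0 +
    (1540 : ℝ) * r ^ 7 * S ^ 0 * p ^ 0 +
    (-12338 : ℝ) * r ^ 7 * S ^ 0 * p ^ 1 +
    (220 : ℝ) * r ^ 7 * S ^ 2 * p ^ 0 +
    (-990 : ℝ) * r ^ 8 * S ^ 1 * p ^ 0 +
    (1600 : ℝ) * r ^ 9 * S ^ 0 * p ^ 0

/-- The chord polynomial in the coordinates of the sum and of the product. -/
def lowL : List (List (List ℤ)) :=
  [[[24000, -36000, 0, 12000],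
    [-24000, 36000]],
   [],
   [[5140, 0, 0, 6000, -37700, 26560],
    [10280, 0, 0, 6000],
    [-15420]],
   [],
   [[-910, 0, 0, 0, -3940, 16420, -14650, 3080],
    [-8190, 0, 0, 0, 5910, -15256],
    [4550],
    [4550]],
   [],
   [[64, 0, 0, 0, 0, -473, 4918, -5729, -1980, 3200],
    [1280, 0, 0, 0, 0, 1892, -5579, 6169],
    [896, 0, 0, 0, 0, -1419],
    [-1792],
    [-448]]]

theorem lowL_nonneg {x y z : ℝ} (x0 : 0 ≤ x) (x1 : x ≤ 1) (y0 : 0 ≤ y) (y1 : y ≤ 1) (z0 : 0 ≤ z) :
    0 ≤ Coef.val lowL [x, y, z] := by
  rcases le_total z (1 : ℝ) with h | h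
  ·
    exact box_seg (0) (1) (1) (0) (1) (1) (0) (1) (1) (l := lowL) (by decide +kernel) (by norm_num)
      (by push_cast; linarith) (by push_cast; linarith) (by push_cast; linarith) (by push_cast; linarith) (by push_cast; linarith) (by push_cast; linarith)
  ·
    exact box_tail (0) (1) (1) (0) (1) (1) (1) (l := lowL) (by decide +kernel) (by norm_num)
      (by push_cast; linarith) (by push_cast; linarith) (by push_cast; linarith) (by push_cast; linarith) (by push_cast; linarith)

theorem CS_low (S t u : ℝ) : (2 : ℝ) * CS (S * u) S ((S ^ 2 - S ^ 2 * t) / 4) =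
    1 * S ^ 3 * Coef.val lowL [S, t, u] := by
  simp only [lowL, CS, ev, Coef.val, List.headD_cons, List.tail_cons]
  push_cast
  ring

/-- The chord polynomial in the coordinates of the sum and of the product. -/
def highL : List (List (List ℤ)) :=
  [[[],
    [-96000, 144000],
    [-246720],
    [291200],
    [-114688]],
   [[],
    [96000, -144000],
    [493440],
    [-873600],
    [458752]],
   [[24000, -36000, 0, 12000],
    [17120, 36000, 0, 24000],
    [-297280],
    [977312],
    [-802816]],
   [[],
    [-41120, 0, 0, -24000],
    [-22240],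
    [-383936],
    [802816]],
   [[5140, 0, 0, 6000, -37700, 26560],
    [-22480, 0, 0, 6000, 23640, -61024],
    [108116, 0, 0, 0, 0, -22704],
    [-157080],
    [-501760]],
   [[],
    [32760, 0, 0, 0, -23640, 61024],
    [-65072, 0, 0, 0, 0, 45408],
    [232120],
    [200704]],
   [[-910, 0, 0, 0, -3940, 16420, -14650, 3080],
    [-3070, 0, 0, 0, 5910, -7688, -22316, 24676],
    [26054, 0, 0, 0, 0, -34056],
    [-102970],
    [-50176]],
   [[],
    [-5120, 0, 0, 0, 0, -7568, 22316, -24676],
    [-7168, 0, 0, 0, 0, 11352],
    [21504],
    [7168]],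
   [[64, 0, 0, 0, 0, -473, 4918, -5729, -1980, 3200],
    [1280, 0, 0, 0, 0, 1892, -5579, 6169],
    [896, 0, 0, 0, 0, -1419],
    [-1792],
    [-448]]]

theorem highL_part0 {x y z : ℝ} (x0 : 1 ≤ x) (x1 : x ≤ 3 / 2) (y0 : 0 ≤ y) (y1 : y ≤ 1) (z0 : 0 ≤ z) (z1 : z ≤ 1) :
    0 ≤ Coef.val highL [x, y, z] := by
  rcases le_total y (1 / 2 : ℝ) with h | h
  ·
    rcases le_total z (1 / 2 : ℝ) with h | h
    ·
      exact box_seg (2) (3) (2) (0) (1) (2) (0) (1) (2) (l := highL) (by decide +kernel) (by norm_num)
        (by push_cast; linarith) (by push_cast; linarith) (by push_cast; linarith) (by push_cast; linarith) (by push_cast; linarith) (by push_cast; linarith)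
    ·
      exact box_seg (2) (3) (2) (0) (1) (2) (1) (2) (2) (l := highL) (by decide +kernel) (by norm_num)
        (by push_cast; linarith) (by push_cast; linarith) (by push_cast; linarith) (by push_cast; linarith) (by push_cast; linarith) (by push_cast; linarith)
  ·
    rcases le_total z (1 / 2 : ℝ) with h | h
    ·
      exact box_seg (2) (3) (2) (1) (2) (2) (0) (1) (2) (l := highL) (by decide +kernel) (by norm_num)
        (by push_cast; linarith) (by push_cast; linarith) (by push_cast; linarith) (by push_cast; linarith) (by push_cast; linarith) (by push_cast; linarith)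
    ·
      rcases le_total x (5 / 4 : ℝ) with h | h
      ·
        exact box_seg (4) (5) (4) (1) (2) (2) (1) (2) (2) (l := highL) (by decide +kernel) (by norm_num)
          (by push_cast; linarith) (by push_cast; linarith) (by push_cast; linarith) (by push_cast; linarith) (by push_cast; linarith) (by push_cast; linarith)
      ·
        rcases le_total y (3 / 4 : ℝ) with h | h
        ·
          exact box_seg (5) (6) (4) (2) (3) (4) (1) (2) (2) (l := highL) (by decide +kernel) (by norm_num)
            (by push_cast; linarith) (by push_cast; linarith) (by push_cast; linarith) (by push_cast; linarith) (by push_cast; linarith) (by push_cast; linarith)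
        ·
          rcases le_total z (3 / 4 : ℝ) with h | h
          ·
            exact box_seg (5) (6) (4) (3) (4) (4) (2) (3) (4) (l := highL) (by decide +kernel) (by norm_num)
              (by push_cast; linarith) (by push_cast; linarith) (by push_cast; linarith) (by push_cast; linarith) (by push_cast; linarith) (by push_cast; linarith)
          ·
            exact box_seg (5) (6) (4) (3) (4) (4) (3) (4) (4) (l := highL) (by decide +kernel) (by norm_num)
              (by push_cast; linarith) (by push_cast; linarith) (by push_cast; linarith) (by push_cast; linarith) (by push_cast; linarith) (by push_cast; linarith)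

theorem highL_part1 {x y z : ℝ} (x0 : 3 / 2 ≤ x) (x1 : x ≤ 2) (y0 : 0 ≤ y) (y1 : y ≤ 1 / 2) (z0 : 0 ≤ z) (z1 : z ≤ 1 / 2) :
    0 ≤ Coef.val highL [x, y, z] := by
  exact box_seg (3) (4) (2) (0) (1) (2) (0) (1) (2) (l := highL) (by decide +kernel) (by norm_num)
    (by push_cast; linarith) (by push_cast; linarith) (by push_cast; linarith) (by push_cast; linarith) (by push_cast; linarith) (by push_cast; linarith)

theorem highL_part2 {x y z : ℝ} (x0 : 3 / 2 ≤ x) (x1 : x ≤ 7 / 4) (y0 : 0 ≤ y) (y1 : y ≤ 1 / 4) (z0 : 1 / 2 ≤ z) (z1 : z ≤ 3 / 4) :
    0 ≤ Coef.val highL [x, y, z] := by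
  exact box_seg (6) (7) (4) (0) (1) (4) (2) (3) (4) (l := highL) (by decide +kernel) (by norm_num)
    (by push_cast; linarith) (by push_cast; linarith) (by push_cast; linarith) (by push_cast; linarith) (by push_cast; linarith) (by push_cast; linarith)

theorem highL_part3 {x y z : ℝ} (x0 : 3 / 2 ≤ x) (x1 : x ≤ 7 / 4) (y0 : 0 ≤ y) (y1 : y ≤ 1 / 4) (z0 : 3 / 4 ≤ z) (z1 : z ≤ 1) :
    0 ≤ Coef.val highL [x, y, z] := by
  rcases le_total x (13 / 8 : ℝ) with h | h
  ·
    rcases le_total y (1 / 8 : ℝ) with h | h
    ·
      rcases le_total z (7 / 8 : ℝ) with h | h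
      ·
        exact box_seg (12) (13) (8) (0) (1) (8) (6) (7) (8) (l := highL) (by decide +kernel) (by norm_num)
          (by push_cast; linarith) (by push_cast; linarith) (by push_cast; linarith) (by push_cast; linarith) (by push_cast; linarith) (by push_cast; linarith)
      ·
        exact box_seg (12) (13) (8) (0) (1) (8) (7) (8) (8) (l := highL) (by decide +kernel) (by norm_num)
          (by push_cast; linarith) (by push_cast; linarith) (by push_cast; linarith) (by push_cast; linarith) (by push_cast; linarith) (by push_cast; linarith)
    ·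
      rcases le_total z (7 / 8 : ℝ) with h | h
      ·
        exact box_seg (12) (13) (8) (1) (2) (8) (6) (7) (8) (l := highL) (by decide +kernel) (by norm_num)
          (by push_cast; linarith) (by push_cast; linarith) (by push_cast; linarith) (by push_cast; linarith) (by push_cast; linarith) (by push_cast; linarith)
      ·
        exact box_seg (12) (13) (8) (1) (2) (8) (7) (8) (8) (l := highL) (by decide +kernel) (by norm_num)
          (by push_cast; linarith) (by push_cast; linarith) (by push_cast; linarith) (by push_cast; linarith) (by push_cast; linarith) (by push_cast; linarith)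
  ·
    rcases le_total y (1 / 8 : ℝ) with h | h
    ·
      rcases le_total z (7 / 8 : ℝ) with h | h
      ·
        exact box_seg (13) (14) (8) (0) (1) (8) (6) (7) (8) (l := highL) (by decide +kernel) (by norm_num)
          (by push_cast; linarith) (by push_cast; linarith) (by push_cast; linarith) (by push_cast; linarith) (by push_cast; linarith) (by push_cast; linarith)
      ·
        exact box_seg (13) (14) (8) (0) (1) (8) (7) (8) (8) (l := highL) (by decide +kernel) (by norm_num)
          (by push_cast; linarith) (by push_cast; linarith) (by push_cast; linarith) (by push_cast; linarith) (by push_cast; linarith) (by push_cast; linarith)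
    ·
      rcases le_total z (7 / 8 : ℝ) with h | h
      ·
        exact box_seg (13) (14) (8) (1) (2) (8) (6) (7) (8) (l := highL) (by decide +kernel) (by norm_num)
          (by push_cast; linarith) (by push_cast; linarith) (by push_cast; linarith) (by push_cast; linarith) (by push_cast; linarith) (by push_cast; linarith)
      ·
        exact box_seg (13) (14) (8) (1) (2) (8) (7) (8) (8) (l := highL) (by decide +kernel) (by norm_num)
          (by push_cast; linarith) (by push_cast; linarith) (by push_cast; linarith) (by push_cast; linarith) (by push_cast; linarith) (by push_cast; linarith)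

theorem highL_part4 {x y z : ℝ} (x0 : 3 / 2 ≤ x) (x1 : x ≤ 7 / 4) (y0 : 1 / 4 ≤ y) (y1 : y ≤ 1 / 2) (z0 : 1 / 2 ≤ z) (z1 : z ≤ 3 / 4) :
    0 ≤ Coef.val highL [x, y, z] := by
  exact box_seg (6) (7) (4) (1) (2) (4) (2) (3) (4) (l := highL) (by decide +kernel) (by norm_num)
    (by push_cast; linarith) (by push_cast; linarith) (by push_cast; linarith) (by push_cast; linarith) (by push_cast; linarith) (by push_cast; linarith)

theorem highL_part5 {x y z : ℝ} (x0 : 3 / 2 ≤ x) (x1 : x ≤ 7 / 4) (y0 : 1 / 4 ≤ y) (y1 : y ≤ 1 / 2) (z0 : 3 / 4 ≤ z) (z1 : z ≤ 1) :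
    0 ≤ Coef.val highL [x, y, z] := by
  rcases le_total x (13 / 8 : ℝ) with h | h
  ·
    rcases le_total y (3 / 8 : ℝ) with h | h
    ·
      rcases le_total z (7 / 8 : ℝ) with h | h
      ·
        exact box_seg (12) (13) (8) (2) (3) (8) (6) (7) (8) (l := highL) (by decide +kernel) (by norm_num)
          (by push_cast; linarith) (by push_cast; linarith) (by push_cast; linarith) (by push_cast; linarith) (by push_cast; linarith) (by push_cast; linarith)
      ·
        exact box_seg (12) (13) (8) (2) (3) (8) (7) (8) (8) (l := highL) (by decide +kernel) (by norm_num)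
          (by push_cast; linarith) (by push_cast; linarith) (by push_cast; linarith) (by push_cast; linarith) (by push_cast; linarith) (by push_cast; linarith)
    ·
      rcases le_total z (7 / 8 : ℝ) with h | h
      ·
        exact box_seg (12) (13) (8) (3) (4) (8) (6) (7) (8) (l := highL) (by decide +kernel) (by norm_num)
          (by push_cast; linarith) (by push_cast; linarith) (by push_cast; linarith) (by push_cast; linarith) (by push_cast; linarith) (by push_cast; linarith)
      ·
        exact box_seg (12) (13) (8) (3) (4) (8) (7) (8) (8) (l := highL) (by decide +kernel) (by norm_num)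
          (by push_cast; linarith) (by push_cast; linarith) (by push_cast; linarith) (by push_cast; linarith) (by push_cast; linarith) (by push_cast; linarith)
  ·
    rcases le_total y (3 / 8 : ℝ) with h | h
    ·
      rcases le_total z (7 / 8 : ℝ) with h | h
      ·
        exact box_seg (13) (14) (8) (2) (3) (8) (6) (7) (8) (l := highL) (by decide +kernel) (by norm_num)
          (by push_cast; linarith) (by push_cast; linarith) (by push_cast; linarith) (by push_cast; linarith) (by push_cast; linarith) (by push_cast; linarith)
      ·
        exact box_seg (13) (14) (8) (2) (3) (8) (7) (8) (8) (l := highL) (by decide +kernel) (by norm_num)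
          (by push_cast; linarith) (by push_cast; linarith) (by push_cast; linarith) (by push_cast; linarith) (by push_cast; linarith) (by push_cast; linarith)
    ·
      rcases le_total z (7 / 8 : ℝ) with h | h
      ·
        exact box_seg (13) (14) (8) (3) (4) (8) (6) (7) (8) (l := highL) (by decide +kernel) (by norm_num)
          (by push_cast; linarith) (by push_cast; linarith) (by push_cast; linarith) (by push_cast; linarith) (by push_cast; linarith) (by push_cast; linarith)
      ·
        exact box_seg (13) (14) (8) (3) (4) (8) (7) (8) (8) (l := highL) (by decide +kernel) (by norm_num)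
          (by push_cast; linarith) (by push_cast; linarith) (by push_cast; linarith) (by push_cast; linarith) (by push_cast; linarith) (by push_cast; linarith)

theorem highL_part6 {x y z : ℝ} (x0 : 7 / 4 ≤ x) (x1 : x ≤ 2) (y0 : 0 ≤ y) (y1 : y ≤ 1 / 2) (z0 : 1 / 2 ≤ z) (z1 : z ≤ 1) :
    0 ≤ Coef.val highL [x, y, z] := by
  rcases le_total y (1 / 4 : ℝ) with h | h
  ·
    rcases le_total z (3 / 4 : ℝ) with h | h
    ·
      exact box_seg (7) (8) (4) (0) (1) (4) (2) (3) (4) (l := highL) (by decide +kernel) (by norm_num)
        (by push_cast; linarith) (by push_cast; linarith) (by push_cast; linarith) (by push_cast; linarith) (by push_cast; linarith) (by push_cast; linarith)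
    ·
      exact box_seg (7) (8) (4) (0) (1) (4) (3) (4) (4) (l := highL) (by decide +kernel) (by norm_num)
        (by push_cast; linarith) (by push_cast; linarith) (by push_cast; linarith) (by push_cast; linarith) (by push_cast; linarith) (by push_cast; linarith)
  ·
    rcases le_total z (3 / 4 : ℝ) with h | h
    ·
      exact box_seg (7) (8) (4) (1) (2) (4) (2) (3) (4) (l := highL) (by decide +kernel) (by norm_num)
        (by push_cast; linarith) (by push_cast; linarith) (by push_cast; linarith) (by push_cast; linarith) (by push_cast; linarith) (by push_cast; linarith)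
    ·
      exact box_seg (7) (8) (4) (1) (2) (4) (3) (4) (4) (l := highL) (by decide +kernel) (by norm_num)
        (by push_cast; linarith) (by push_cast; linarith) (by push_cast; linarith) (by push_cast; linarith) (by push_cast; linarith) (by push_cast; linarith)

theorem highL_part7 {x y z : ℝ} (x0 : 3 / 2 ≤ x) (x1 : x ≤ 2) (y0 : 1 / 2 ≤ y) (y1 : y ≤ 1) (z0 : 0 ≤ z) (z1 : z ≤ 1 / 2) :
    0 ≤ Coef.val highL [x, y, z] := by
  exact box_seg (3) (4) (2) (1) (2) (2) (0) (1) (2) (l := highL) (by decide +kernel) (by norm_num)
    (by push_cast; linarith) (by push_cast; linarith) (by push_cast; linarith) (by push_cast; linarith) (by push_cast; linarith) (by push_cast; linarith)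

theorem highL_part8 {x y z : ℝ} (x0 : 3 / 2 ≤ x) (x1 : x ≤ 7 / 4) (y0 : 1 / 2 ≤ y) (y1 : y ≤ 3 / 4) (z0 : 1 / 2 ≤ z) (z1 : z ≤ 3 / 4) :
    0 ≤ Coef.val highL [x, y, z] := by
  exact box_seg (6) (7) (4) (2) (3) (4) (2) (3) (4) (l := highL) (by decide +kernel) (by norm_num)
    (by push_cast; linarith) (by push_cast; linarith) (by push_cast; linarith) (by push_cast; linarith) (by push_cast; linarith) (by push_cast; linarith)

theorem highL_part9 {x y z : ℝ} (x0 : 3 / 2 ≤ x) (x1 : x ≤ 7 / 4) (y0 : 1 / 2 ≤ y) (y1 : y ≤ 3 / 4) (z0 : 3 / 4 ≤ z) (z1 : z ≤ 1) :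
    0 ≤ Coef.val highL [x, y, z] := by
  rcases le_total x (13 / 8 : ℝ) with h | h
  ·
    rcases le_total y (5 / 8 : ℝ) with h | h
    ·
      rcases le_total z (7 / 8 : ℝ) with h | h
      ·
        exact box_seg (12) (13) (8) (4) (5) (8) (6) (7) (8) (l := highL) (by decide +kernel) (by norm_num)
          (by push_cast; linarith) (by push_cast; linarith) (by push_cast; linarith) (by push_cast; linarith) (by push_cast; linarith) (by push_cast; linarith)
      ·
        exact box_seg (12) (13) (8) (4) (5) (8) (7) (8) (8) (l := highL) (by decide +kernel) (by norm_num)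
          (by push_cast; linarith) (by push_cast; linarith) (by push_cast; linarith) (by push_cast; linarith) (by push_cast; linarith) (by push_cast; linarith)
    ·
      rcases le_total z (7 / 8 : ℝ) with h | h
      ·
        exact box_seg (12) (13) (8) (5) (6) (8) (6) (7) (8) (l := highL) (by decide +kernel) (by norm_num)
          (by push_cast; linarith) (by push_cast; linarith) (by push_cast; linarith) (by push_cast; linarith) (by push_cast; linarith) (by push_cast; linarith)
      ·
        exact box_seg (12) (13) (8) (5) (6) (8) (7) (8) (8) (l := highL) (by decide +kernel) (by norm_num)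
          (by push_cast; linarith) (by push_cast; linarith) (by push_cast; linarith) (by push_cast; linarith) (by push_cast; linarith) (by push_cast; linarith)
  ·
    rcases le_total y (5 / 8 : ℝ) with h | h
    ·
      rcases le_total z (7 / 8 : ℝ) with h | h
      ·
        exact box_seg (13) (14) (8) (4) (5) (8) (6) (7) (8) (l := highL) (by decide +kernel) (by norm_num)
          (by push_cast; linarith) (by push_cast; linarith) (by push_cast; linarith) (by push_cast; linarith) (by push_cast; linarith) (by push_cast; linarith)
      ·
        exact box_seg (13) (14) (8) (4) (5) (8) (7) (8) (8) (l := highL) (by decide +kernel) (by norm_num)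
          (by push_cast; linarith) (by push_cast; linarith) (by push_cast; linarith) (by push_cast; linarith) (by push_cast; linarith) (by push_cast; linarith)
    ·
      rcases le_total z (7 / 8 : ℝ) with h | h
      ·
        exact box_seg (13) (14) (8) (5) (6) (8) (6) (7) (8) (l := highL) (by decide +kernel) (by norm_num)
          (by push_cast; linarith) (by push_cast; linarith) (by push_cast; linarith) (by push_cast; linarith) (by push_cast; linarith) (by push_cast; linarith)
      ·
        exact box_seg (13) (14) (8) (5) (6) (8) (7) (8) (8) (l := highL) (by decide +kernel) (by norm_num)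
          (by push_cast; linarith) (by push_cast; linarith) (by push_cast; linarith) (by push_cast; linarith) (by push_cast; linarith) (by push_cast; linarith)

theorem highL_part10 {x y z : ℝ} (x0 : 3 / 2 ≤ x) (x1 : x ≤ 7 / 4) (y0 : 3 / 4 ≤ y) (y1 : y ≤ 1) (z0 : 1 / 2 ≤ z) (z1 : z ≤ 3 / 4) :
    0 ≤ Coef.val highL [x, y, z] := by
  exact box_seg (6) (7) (4) (3) (4) (4) (2) (3) (4) (l := highL) (by decide +kernel) (by norm_num)
    (by push_cast; linarith) (by push_cast; linarith) (by push_cast; linarith) (by push_cast; linarith) (by push_cast; linarith) (by push_cast; linarith)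

theorem highL_part11 {x y z : ℝ} (x0 : 3 / 2 ≤ x) (x1 : x ≤ 13 / 8) (y0 : 3 / 4 ≤ y) (y1 : y ≤ 1) (z0 : 3 / 4 ≤ z) (z1 : z ≤ 1) :
    0 ≤ Coef.val highL [x, y, z] := by
  rcases le_total y (7 / 8 : ℝ) with h | h
  ·
    rcases le_total z (7 / 8 : ℝ) with h | h
    ·
      exact box_seg (12) (13) (8) (6) (7) (8) (6) (7) (8) (l := highL) (by decide +kernel) (by norm_num)
        (by push_cast; linarith) (by push_cast; linarith) (by push_cast; linarith) (by push_cast; linarith) (by push_cast; linarith) (by push_cast; linarith)
    ·
      exact box_seg (12) (13) (8) (6) (7) (8) (7) (8) (8) (l := highL) (by decide +kernel) (by norm_num)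
        (by push_cast; linarith) (by push_cast; linarith) (by push_cast; linarith) (by push_cast; linarith) (by push_cast; linarith) (by push_cast; linarith)
  ·
    rcases le_total z (7 / 8 : ℝ) with h | h
    ·
      exact box_seg (12) (13) (8) (7) (8) (8) (6) (7) (8) (l := highL) (by decide +kernel) (by norm_num)
        (by push_cast; linarith) (by push_cast; linarith) (by push_cast; linarith) (by push_cast; linarith) (by push_cast; linarith) (by push_cast; linarith)
    ·
      rcases le_total x (25 / 16 : ℝ) with h | h
      ·
        exact box_seg (24) (25) (16) (7) (8) (8) (7) (8) (8) (l := highL) (by decide +kernel) (by norm_num)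
          (by push_cast; linarith) (by push_cast; linarith) (by push_cast; linarith) (by push_cast; linarith) (by push_cast; linarith) (by push_cast; linarith)
      ·
        rcases le_total y (15 / 16 : ℝ) with h | h
        ·
          exact box_seg (25) (26) (16) (14) (15) (16) (7) (8) (8) (l := highL) (by decide +kernel) (by norm_num)
            (by push_cast; linarith) (by push_cast; linarith) (by push_cast; linarith) (by push_cast; linarith) (by push_cast; linarith) (by push_cast; linarith)
        ·
          rcases le_total z (15 / 16 : ℝ) with h | h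
          ·
            exact box_seg (25) (26) (16) (15) (16) (16) (14) (15) (16) (l := highL) (by decide +kernel) (by norm_num)
              (by push_cast; linarith) (by push_cast; linarith) (by push_cast; linarith) (by push_cast; linarith) (by push_cast; linarith) (by push_cast; linarith)
          ·
            exact box_seg (25) (26) (16) (15) (16) (16) (15) (16) (16) (l := highL) (by decide +kernel) (by norm_num)
              (by push_cast; linarith) (by push_cast; linarith) (by push_cast; linarith) (by push_cast; linarith) (by push_cast; linarith) (by push_cast; linarith)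

theorem highL_part12 {x y z : ℝ} (x0 : 13 / 8 ≤ x) (x1 : x ≤ 7 / 4) (y0 : 3 / 4 ≤ y) (y1 : y ≤ 1) (z0 : 3 / 4 ≤ z) (z1 : z ≤ 1) :
    0 ≤ Coef.val highL [x, y, z] := by
  rcases le_total y (7 / 8 : ℝ) with h | h
  ·
    rcases le_total z (7 / 8 : ℝ) with h | h
    ·
      exact box_seg (13) (14) (8) (6) (7) (8) (6) (7) (8) (l := highL) (by decide +kernel) (by norm_num)
        (by push_cast; linarith) (by push_cast; linarith) (by push_cast; linarith) (by push_cast; linarith) (by push_cast; linarith) (by push_cast; linarith)
    ·
      exact box_seg (13) (14) (8) (6) (7) (8) (7) (8) (8) (l := highL) (by decide +kernel) (by norm_num)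
        (by push_cast; linarith) (by push_cast; linarith) (by push_cast; linarith) (by push_cast; linarith) (by push_cast; linarith) (by push_cast; linarith)
  ·
    rcases le_total z (7 / 8 : ℝ) with h | h
    ·
      exact box_seg (13) (14) (8) (7) (8) (8) (6) (7) (8) (l := highL) (by decide +kernel) (by norm_num)
        (by push_cast; linarith) (by push_cast; linarith) (by push_cast; linarith) (by push_cast; linarith) (by push_cast; linarith) (by push_cast; linarith)
    ·
      exact box_seg (13) (14) (8) (7) (8) (8) (7) (8) (8) (l := highL) (by decide +kernel) (by norm_num)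
        (by push_cast; linarith) (by push_cast; linarith) (by push_cast; linarith) (by push_cast; linarith) (by push_cast; linarith) (by push_cast; linarith)

theorem highL_part13 {x y z : ℝ} (x0 : 7 / 4 ≤ x) (x1 : x ≤ 2) (y0 : 1 / 2 ≤ y) (y1 : y ≤ 1) (z0 : 1 / 2 ≤ z) (z1 : z ≤ 1) :
    0 ≤ Coef.val highL [x, y, z] := by
  rcases le_total y (3 / 4 : ℝ) with h | h
  ·
    rcases le_total z (3 / 4 : ℝ) with h | h
    ·
      exact box_seg (7) (8) (4) (2) (3) (4) (2) (3) (4) (l := highL) (by decide +kernel) (by norm_num)
        (by push_cast; linarith) (by push_cast; linarith) (by push_cast; linarith) (by push_cast; linarith) (by push_cast; linarith) (by push_cast; linarith)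
    ·
      exact box_seg (7) (8) (4) (2) (3) (4) (3) (4) (4) (l := highL) (by decide +kernel) (by norm_num)
        (by push_cast; linarith) (by push_cast; linarith) (by push_cast; linarith) (by push_cast; linarith) (by push_cast; linarith) (by push_cast; linarith)
  ·
    rcases le_total z (3 / 4 : ℝ) with h | h
    ·
      exact box_seg (7) (8) (4) (3) (4) (4) (2) (3) (4) (l := highL) (by decide +kernel) (by norm_num)
        (by push_cast; linarith) (by push_cast; linarith) (by push_cast; linarith) (by push_cast; linarith) (by push_cast; linarith) (by push_cast; linarith)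
    ·
      exact box_seg (7) (8) (4) (3) (4) (4) (3) (4) (4) (l := highL) (by decide +kernel) (by norm_num)
        (by push_cast; linarith) (by push_cast; linarith) (by push_cast; linarith) (by push_cast; linarith) (by push_cast; linarith) (by push_cast; linarith)

theorem highL_part14 {x y z : ℝ} (x0 : 1 ≤ x) (x1 : x ≤ 2) (y0 : 0 ≤ y) (y1 : y ≤ 1) (z0 : 1 ≤ z) :
    0 ≤ Coef.val highL [x, y, z] := by
  rcases le_total z (2 : ℝ) with h | h
  ·
    rcases le_total x (3 / 2 : ℝ) with h | h
    ·
      exact box_seg (2) (3) (2) (0) (1) (1) (1) (2) (1) (l := highL) (by decide +kernel) (by norm_num)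
        (by push_cast; linarith) (by push_cast; linarith) (by push_cast; linarith) (by push_cast; linarith) (by push_cast; linarith) (by push_cast; linarith)
    ·
      exact box_seg (3) (4) (2) (0) (1) (1) (1) (2) (1) (l := highL) (by decide +kernel) (by norm_num)
        (by push_cast; linarith) (by push_cast; linarith) (by push_cast; linarith) (by push_cast; linarith) (by push_cast; linarith) (by push_cast; linarith)
  ·
    exact box_tail (1) (2) (1) (0) (1) (1) (2) (l := highL) (by decide +kernel) (by norm_num)
      (by push_cast; linarith) (by push_cast; linarith) (by push_cast; linarith) (by push_cast; linarith) (by push_cast; linarith)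

theorem highL_nonneg {x y z : ℝ} (x0 : 1 ≤ x) (x1 : x ≤ 2) (y0 : 0 ≤ y) (y1 : y ≤ 1) (z0 : 0 ≤ z) :
    0 ≤ Coef.val highL [x, y, z] := by
  rcases le_total z (1 : ℝ) with h | h
  ·
    rcases le_total x (3 / 2 : ℝ) with h | h
    ·
      exact highL_part0 (by linarith) (by linarith) (by linarith) (by linarith) (by linarith) (by linarith)
    ·
      rcases le_total y (1 / 2 : ℝ) with h | h
      ·
        rcases le_total z (1 / 2 : ℝ) with h | h
        ·
          exact highL_part1 (by linarith) (by linarith) (by linarith) (by linarith) (by linarith) (by linarith)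
        ·
          rcases le_total x (7 / 4 : ℝ) with h | h
          ·
            rcases le_total y (1 / 4 : ℝ) with h | h
            ·
              rcases le_total z (3 / 4 : ℝ) with h | h
              ·
                exact highL_part2 (by linarith) (by linarith) (by linarith) (by linarith) (by linarith) (by linarith)
              ·
                exact highL_part3 (by linarith) (by linarith) (by linarith) (by linarith) (by linarith) (by linarith)
            ·
              rcases le_total z (3 / 4 : ℝ) with h | h
              ·
                exact highL_part4 (by linarith) (by linarith) (by linarith) (by linarith) (by linarith) (by linarith)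
              ·
                exact highL_part5 (by linarith) (by linarith) (by linarith) (by linarith) (by linarith) (by linarith)
          ·
            exact highL_part6 (by linarith) (by linarith) (by linarith) (by linarith) (by linarith) (by linarith)
      ·
        rcases le_total z (1 / 2 : ℝ) with h | h
        ·
          exact highL_part7 (by linarith) (by linarith) (by linarith) (by linarith) (by linarith) (by linarith)
        ·
          rcases le_total x (7 / 4 : ℝ) with h | h
          ·
            rcases le_total y (3 / 4 : ℝ) with h | h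
            ·
              rcases le_total z (3 / 4 : ℝ) with h | h
              ·
                exact highL_part8 (by linarith) (by linarith) (by linarith) (by linarith) (by linarith) (by linarith)
              ·
                exact highL_part9 (by linarith) (by linarith) (by linarith) (by linarith) (by linarith) (by linarith)
            ·
              rcases le_total z (3 / 4 : ℝ) with h | h
              ·
                exact highL_part10 (by linarith) (by linarith) (by linarith) (by linarith) (by linarith) (by linarith)
              ·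
                rcases le_total x (13 / 8 : ℝ) with h | h
                ·
                  exact highL_part11 (by linarith) (by linarith) (by linarith) (by linarith) (by linarith) (by linarith)
                ·
                  exact highL_part12 (by linarith) (by linarith) (by linarith) (by linarith) (by linarith) (by linarith)
          ·
            exact highL_part13 (by linarith) (by linarith) (by linarith) (by linarith) (by linarith) (by linarith)
  ·
    exact highL_part14 (by linarith) (by linarith) (by linarith) (by linarith) (by linarith)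

theorem CS_high (S t u : ℝ) : (2 : ℝ) * CS (S * u) S ((S ^ 2 - (2 - S) ^ 2 * t) / 4) =
    1 * S ^ 1 * Coef.val highL [S, t, u] := by
  simp only [highL, CS, ev, Coef.val, List.headD_cons, List.tail_cons]
  push_cast
  ring

end

end Vale.Agent.P219.Aff.Ten
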