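import Vale.Agent.P219.Aff.Ten.Box

/-!
# Checked coefficient lists for the chord inequality in dimension ten, sides with changing sign
-/

namespace Vale.Agent.P219.Aff.Ten

open Vale.Agent.P219.Aff.Nine

noncomputable section

/-- The chord polynomial with fixed signs. -/
def cpmMidL : List (List (List ℤ)) :=
  [[[0, 0, 0, 12000, 0, 26560, 0, 3080, 0, 3200],
    [0, 0, 0, 0, -29820, 0, -17294, 0, -1980],
    [0, 0, 0, 12000, 0, 1164, 0, 440],
    [0, 0, 0, 0, -1970, 0, 661]],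
   [[0, 0, 0, 0, -37700, 0, -14650, 0, -1980],
    [0, -144000, 0, 0, 0, 70920, 0, -23796],
    [96000, 0, 0, 0, -17730, 0, 20333],
    [],
    [82240],
    [],
    [-58240],
    [],
    [16384]],
   [[0, 0, 0, 12000, 0, 1164, 0, 440],
    [96000, 0, 0, 0, -21670, 0, 21655],
    [0, 0, 0, 0, 0, -15136]],
   [[0, 0, 0, 0, 1970, 0, -661]],
   [[],
    [82240]],
   [],
   [[],
    [-58240]],
   [],
   [[],
    [16384]]]

theorem cpmMidL_nonneg {x y z : ℝ} (x0 : 0 ≤ x) (x1 : x ≤ 3 / 4) (y0 : 0 ≤ y) (y1 : y ≤ 1) (z0 : 17 / 10 ≤ z) (z1 : z ≤ 3) :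
    0 ≤ Coef.val cpmMidL [x, y, z] := by
  exact box_seg (0) (3) (4) (0) (1) (1) (17) (30) (10) (l := cpmMidL) (by decide +kernel) (by norm_num)
    (by push_cast; linarith) (by push_cast; linarith) (by push_cast; linarith) (by push_cast; linarith) (by push_cast; linarith) (by push_cast; linarith)

/-- The chord polynomial with fixed signs. -/
def cmmMidL : List (List (List ℤ)) :=
  [[[0, 0, 0, 12000, 0, 26560, 0, 3080, 0, 3200],
    [0, 0, 0, 0, -29820, 0, -17294, 0, -1980],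
    [0, 0, 0, 12000, 0, 1164, 0, 440],
    [0, 0, 0, 0, -1970, 0, 661]],
   [[0, 0, 0, 0, -29820, 0, -17294, 0, -1980],
    [0, -144000, 0, 0, 0, 78488, 0, -23796],
    [96000, 0, 0, 0, -21670, 0, 21655],
    [0, 0, 0, 0, 0, -3784],
    [82240],
    [],
    [-58240],
    [],
    [16384]],
   [[0, 0, 0, 12000, 0, 1164, 0, 440],
    [96000, 0, 0, 0, -21670, 0, 21655],
    [0, 0, 0, 0, 0, -15136]],
   [[0, 0, 0, 0, -1970, 0, 661],
    [0, 0, 0, 0, 0, -3784]],
   [[],
    [82240]],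
   [],
   [[],
    [-58240]],
   [],
   [[],
    [16384]]]

theorem cmmMidL_nonneg {x y z : ℝ} (x0 : 0 ≤ x) (x1 : x ≤ 3 / 4) (y0 : 0 ≤ y) (y1 : y ≤ 3 / 4) (z0 : 17 / 10 ≤ z) (z1 : z ≤ 3) :
    0 ≤ Coef.val cmmMidL [x, y, z] := by
  exact box_seg (0) (3) (4) (0) (3) (4) (17) (30) (10) (l := cmmMidL) (by decide +kernel) (by norm_num)
    (by push_cast; linarith) (by push_cast; linarith) (by push_cast; linarith) (by push_cast; linarith) (by push_cast; linarith) (by push_cast; linarith)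

/-- The chord polynomial with fixed signs. -/
def cpmHiL : List (List (List ℤ)) :=
  [[[0, 0, 0, 12000, 0, 26560, 0, 3080, 0, 3200],
    [0, 0, 0, 0, -29820, 0, -17294, 0, -1980],
    [0, 0, 0, 12000, 0, 1164, 0, 440],
    [0, 0, 0, 0, -1970, 0, 661]],
   [[0, 0, 0, 0, -37700, 0, -14650, 0, -1980],
    [0, -144000, 0, 0, 0, 70920, 0, -23796],
    [96000, 0, 0, 0, -17730, 0, 20333],
    [],
    [82240],
    [],
    [-58240],
    [],
    [16384]],
   [[0, 0, 0, 12000, 0, 1164, 0, 440],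
    [96000, 0, 0, 0, -21670, 0, 21655],
    [0, 0, 0, 0, 0, -15136]],
   [[0, 0, 0, 0, 1970, 0, -661]],
   [[],
    [82240]],
   [],
   [[],
    [-58240]],
   [],
   [[],
    [16384]]]

theorem cpmHiL_nonneg {x y z : ℝ} (x0 : 0 ≤ x) (x1 : x ≤ 1) (y0 : 0 ≤ y) (y1 : y ≤ 1) (z0 : 3 ≤ z) :
    0 ≤ Coef.val cpmHiL [x, y, z] := by
  exact box_tail (0) (1) (1) (0) (1) (1) (3) (l := cpmHiL) (by decide +kernel) (by norm_num)
    (by push_cast; linarith) (by push_cast; linarith) (by push_cast; linarith) (by push_cast; linarith) (by push_cast; linarith)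

/-- The chord polynomial with fixed signs. -/
def cmmHiL : List (List (List ℤ)) :=
  [[[0, 0, 0, 12000, 0, 26560, 0, 3080, 0, 3200],
    [0, 0, 0, 0, -29820, 0, -17294, 0, -1980],
    [0, 0, 0, 12000, 0, 1164, 0, 440],
    [0, 0, 0, 0, -1970, 0, 661]],
   [[0, 0, 0, 0, -29820, 0, -17294, 0, -1980],
    [0, -144000, 0, 0, 0, 78488, 0, -23796],
    [96000, 0, 0, 0, -21670, 0, 21655],
    [0, 0, 0, 0, 0, -3784],
    [82240],
    [],
    [-58240],
    [],
    [16384]],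
   [[0, 0, 0, 12000, 0, 1164, 0, 440],
    [96000, 0, 0, 0, -21670, 0, 21655],
    [0, 0, 0, 0, 0, -15136]],
   [[0, 0, 0, 0, -1970, 0, 661],
    [0, 0, 0, 0, 0, -3784]],
   [[],
    [82240]],
   [],
   [[],
    [-58240]],
   [],
   [[],
    [16384]]]

theorem cmmHiL_nonneg {x y z : ℝ} (x0 : 0 ≤ x) (x1 : x ≤ 1) (y0 : 0 ≤ y) (y1 : y ≤ 1) (z0 : 3 ≤ z) :
    0 ≤ Coef.val cmmHiL [x, y, z] := by
  exact box_tail (0) (1) (1) (0) (1) (1) (3) (l := cmmHiL) (by decide +kernel) (by norm_num)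
    (by push_cast; linarith) (by push_cast; linarith) (by push_cast; linarith) (by push_cast; linarith) (by push_cast; linarith)

end

end Vale.Agent.P219.Aff.Ten
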