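import Vale.Agent.P219.Aff.Nine.Check

/-!
# Boxes in three variables
-/

namespace Vale.Agent.P219.Aff.Ten

open Vale.Agent.P219.Aff.Nine

/-- Checked coefficients give nonnegativity on a bounded box. -/
theorem box_seg (a b c a' b' c' a'' b'' c'' : ℤ) {l : List (List (List ℤ))}
    (h : ok (ok (ok okZ (seg a'' b'' c'')) (seg a' b' c')) (seg a b c) l = true)
    (hp : (a < b ∧ 0 < c) ∧ (a' < b' ∧ 0 < c') ∧ a'' < b'' ∧ 0 < c'') {x y z : ℝ}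
    (x0 : (a : ℝ) / c ≤ x) (x1 : x ≤ (b : ℝ) / c) (y0 : (a' : ℝ) / c' ≤ y)
    (y1 : y ≤ (b' : ℝ) / c') (z0 : (a'' : ℝ) / c'' ≤ z) (z1 : z ≤ (b'' : ℝ) / c'') :
    0 ≤ Coef.val l [x, y, z] :=
  ok_seg h hp.1.1 hp.1.2 (fun _ h1 => ok_seg h1 hp.2.1.1 hp.2.1.2
    (fun _ h2 => ok_seg h2 hp.2.2.1 hp.2.2.2 (fun _ h3 => okZ_nonneg h3 []) z0 z1) y0 y1) x0 x1

/-- Checked coefficients give nonnegativity on a box unbounded in the last variable. -/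
theorem box_tail (a b c a' b' c' a'' : ℤ) {l : List (List (List ℤ))}
    (h : ok (ok (ok okZ (tail a'')) (seg a' b' c')) (seg a b c) l = true)
    (hp : (a < b ∧ 0 < c) ∧ a' < b' ∧ 0 < c') {x y z : ℝ}
    (x0 : (a : ℝ) / c ≤ x) (x1 : x ≤ (b : ℝ) / c) (y0 : (a' : ℝ) / c' ≤ y)
    (y1 : y ≤ (b' : ℝ) / c') (z0 : (a'' : ℝ) ≤ z) :
    0 ≤ Coef.val l [x, y, z] :=
  ok_seg h hp.1.1 hp.1.2 (fun _ h1 => ok_seg h1 hp.2.1 hp.2.2
    (fun _ h2 => ok_tail h2 (fun _ h3 => okZ_nonneg h3 []) z0) y0 y1) x0 x1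

end Vale.Agent.P219.Aff.Ten
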