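import Vale.Agent.P219.Aff.Ten.Box

/-!
# Checked coefficient lists for the kernel in dimension ten
-/

namespace Vale.Agent.P219.Aff.Ten

open Vale.Agent.P219.Aff.Nine

noncomputable section

/-- The symmetrised kernel with fixed signs. -/
def kppL : List (List (List ℤ)) :=
  [[[6000, -3940, 13280, 1322, 1540, 0, 1600],
    [0, -16880, -1892, -7986, 0, -990],
    [6000, 1970, 582, -661, 220],
    [0, 0, 946]],
   [[0, -16880, -1892, -7986, 0, -990],
    [0, 0, 35460, 0, -11898],
    [0, -9850, 946, 10497]],
   [[6000, 1970, 582, -661, 220],
    [0, -9850, 946, 10497],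
    [0, 0, -7568]],
   [[0, 0, 946]]]

theorem kppL_part0 {x y z : ℝ} (x0 : -1 ≤ x) (x1 : x ≤ 1) (y0 : -1 ≤ y) (y1 : y ≤ 1) (z0 : 0 ≤ z) (z1 : z ≤ 1) :
    0 ≤ Coef.val kppL [x, y, z] := by
  rcases le_total x (0 : ℝ) with h | h
  ·
    exact box_seg (-1) (0) (1) (-1) (1) (1) (0) (1) (1) (l := kppL) (by decide +kernel) (by norm_num)
      (by push_cast; linarith) (by push_cast; linarith) (by push_cast; linarith) (by push_cast; linarith) (by push_cast; linarith) (by push_cast; linarith)
  ·
    rcases le_total y (0 : ℝ) with h | h
    ·
      exact box_seg (0) (1) (1) (-1) (0) (1) (0) (1) (1) (l := kppL) (by decide +kernel) (by norm_num)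
        (by push_cast; linarith) (by push_cast; linarith) (by push_cast; linarith) (by push_cast; linarith) (by push_cast; linarith) (by push_cast; linarith)
    ·
      rcases le_total x (1 / 2 : ℝ) with h | h
      ·
        rcases le_total y (1 / 2 : ℝ) with h | h
        ·
          exact box_seg (0) (1) (2) (0) (1) (2) (0) (1) (1) (l := kppL) (by decide +kernel) (by norm_num)
            (by push_cast; linarith) (by push_cast; linarith) (by push_cast; linarith) (by push_cast; linarith) (by push_cast; linarith) (by push_cast; linarith)
        ·
          exact box_seg (0) (1) (2) (1) (2) (2) (0) (1) (1) (l := kppL) (by decide +kernel) (by norm_num)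
            (by push_cast; linarith) (by push_cast; linarith) (by push_cast; linarith) (by push_cast; linarith) (by push_cast; linarith) (by push_cast; linarith)
      ·
        rcases le_total y (1 / 2 : ℝ) with h | h
        ·
          exact box_seg (1) (2) (2) (0) (1) (2) (0) (1) (1) (l := kppL) (by decide +kernel) (by norm_num)
            (by push_cast; linarith) (by push_cast; linarith) (by push_cast; linarith) (by push_cast; linarith) (by push_cast; linarith) (by push_cast; linarith)
        ·
          rcases le_total z (1 / 2 : ℝ) with h | h
          ·
            exact box_seg (1) (2) (2) (1) (2) (2) (0) (1) (2) (l := kppL) (by decide +kernel) (by norm_num)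
              (by push_cast; linarith) (by push_cast; linarith) (by push_cast; linarith) (by push_cast; linarith) (by push_cast; linarith) (by push_cast; linarith)
          ·
            rcases le_total x (3 / 4 : ℝ) with h | h
            ·
              exact box_seg (2) (3) (4) (1) (2) (2) (1) (2) (2) (l := kppL) (by decide +kernel) (by norm_num)
                (by push_cast; linarith) (by push_cast; linarith) (by push_cast; linarith) (by push_cast; linarith) (by push_cast; linarith) (by push_cast; linarith)
            ·
              exact box_seg (3) (4) (4) (1) (2) (2) (1) (2) (2) (l := kppL) (by decide +kernel) (by norm_num)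
                (by push_cast; linarith) (by push_cast; linarith) (by push_cast; linarith) (by push_cast; linarith) (by push_cast; linarith) (by push_cast; linarith)

theorem kppL_part1 {x y z : ℝ} (x0 : -1 ≤ x) (x1 : x ≤ 0) (y0 : -1 ≤ y) (y1 : y ≤ 1) (z0 : 1 ≤ z) (z1 : z ≤ 2) :
    0 ≤ Coef.val kppL [x, y, z] := by
  exact box_seg (-1) (0) (1) (-1) (1) (1) (1) (2) (1) (l := kppL) (by decide +kernel) (by norm_num)
    (by push_cast; linarith) (by push_cast; linarith) (by push_cast; linarith) (by push_cast; linarith) (by push_cast; linarith) (by push_cast; linarith)

theorem kppL_part2 {x y z : ℝ} (x0 : 0 ≤ x) (x1 : x ≤ 1) (y0 : -1 ≤ y) (y1 : y ≤ 0) (z0 : 1 ≤ z) (z1 : z ≤ 2) :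
    0 ≤ Coef.val kppL [x, y, z] := by
  exact box_seg (0) (1) (1) (-1) (0) (1) (1) (2) (1) (l := kppL) (by decide +kernel) (by norm_num)
    (by push_cast; linarith) (by push_cast; linarith) (by push_cast; linarith) (by push_cast; linarith) (by push_cast; linarith) (by push_cast; linarith)

theorem kppL_part3 {x y z : ℝ} (x0 : 0 ≤ x) (x1 : x ≤ 1 / 2) (y0 : 0 ≤ y) (y1 : y ≤ 1) (z0 : 1 ≤ z) (z1 : z ≤ 2) :
    0 ≤ Coef.val kppL [x, y, z] := by
  rcases le_total y (1 / 2 : ℝ) with h | h
  ·
    exact box_seg (0) (1) (2) (0) (1) (2) (1) (2) (1) (l := kppL) (by decide +kernel) (by norm_num)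
      (by push_cast; linarith) (by push_cast; linarith) (by push_cast; linarith) (by push_cast; linarith) (by push_cast; linarith) (by push_cast; linarith)
  ·
    rcases le_total z (3 / 2 : ℝ) with h | h
    ·
      rcases le_total x (1 / 4 : ℝ) with h | h
      ·
        exact box_seg (0) (1) (4) (1) (2) (2) (2) (3) (2) (l := kppL) (by decide +kernel) (by norm_num)
          (by push_cast; linarith) (by push_cast; linarith) (by push_cast; linarith) (by push_cast; linarith) (by push_cast; linarith) (by push_cast; linarith)
      ·
        rcases le_total y (3 / 4 : ℝ) with h | h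
        ·
          exact box_seg (1) (2) (4) (2) (3) (4) (2) (3) (2) (l := kppL) (by decide +kernel) (by norm_num)
            (by push_cast; linarith) (by push_cast; linarith) (by push_cast; linarith) (by push_cast; linarith) (by push_cast; linarith) (by push_cast; linarith)
        ·
          rcases le_total z (5 / 4 : ℝ) with h | h
          ·
            exact box_seg (1) (2) (4) (3) (4) (4) (4) (5) (4) (l := kppL) (by decide +kernel) (by norm_num)
              (by push_cast; linarith) (by push_cast; linarith) (by push_cast; linarith) (by push_cast; linarith) (by push_cast; linarith) (by push_cast; linarith)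
          ·
            exact box_seg (1) (2) (4) (3) (4) (4) (5) (6) (4) (l := kppL) (by decide +kernel) (by norm_num)
              (by push_cast; linarith) (by push_cast; linarith) (by push_cast; linarith) (by push_cast; linarith) (by push_cast; linarith) (by push_cast; linarith)
    ·
      exact box_seg (0) (1) (2) (1) (2) (2) (3) (4) (2) (l := kppL) (by decide +kernel) (by norm_num)
        (by push_cast; linarith) (by push_cast; linarith) (by push_cast; linarith) (by push_cast; linarith) (by push_cast; linarith) (by push_cast; linarith)

theorem kppL_part4 {x y z : ℝ} (x0 : 1 / 2 ≤ x) (x1 : x ≤ 1) (y0 : 0 ≤ y) (y1 : y ≤ 1 / 2) (z0 : 1 ≤ z) (z1 : z ≤ 2) :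
    0 ≤ Coef.val kppL [x, y, z] := by
  rcases le_total z (3 / 2 : ℝ) with h | h
  ·
    rcases le_total x (3 / 4 : ℝ) with h | h
    ·
      exact box_seg (2) (3) (4) (0) (1) (2) (2) (3) (2) (l := kppL) (by decide +kernel) (by norm_num)
        (by push_cast; linarith) (by push_cast; linarith) (by push_cast; linarith) (by push_cast; linarith) (by push_cast; linarith) (by push_cast; linarith)
    ·
      rcases le_total y (1 / 4 : ℝ) with h | h
      ·
        exact box_seg (3) (4) (4) (0) (1) (4) (2) (3) (2) (l := kppL) (by decide +kernel) (by norm_num)
          (by push_cast; linarith) (by push_cast; linarith) (by push_cast; linarith) (by push_cast; linarith) (by push_cast; linarith) (by push_cast; linarith)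
      ·
        rcases le_total z (5 / 4 : ℝ) with h | h
        ·
          exact box_seg (3) (4) (4) (1) (2) (4) (4) (5) (4) (l := kppL) (by decide +kernel) (by norm_num)
            (by push_cast; linarith) (by push_cast; linarith) (by push_cast; linarith) (by push_cast; linarith) (by push_cast; linarith) (by push_cast; linarith)
        ·
          exact box_seg (3) (4) (4) (1) (2) (4) (5) (6) (4) (l := kppL) (by decide +kernel) (by norm_num)
            (by push_cast; linarith) (by push_cast; linarith) (by push_cast; linarith) (by push_cast; linarith) (by push_cast; linarith) (by push_cast; linarith)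
  ·
    exact box_seg (1) (2) (2) (0) (1) (2) (3) (4) (2) (l := kppL) (by decide +kernel) (by norm_num)
      (by push_cast; linarith) (by push_cast; linarith) (by push_cast; linarith) (by push_cast; linarith) (by push_cast; linarith) (by push_cast; linarith)

theorem kppL_part5 {x y z : ℝ} (x0 : 1 / 2 ≤ x) (x1 : x ≤ 1) (y0 : 1 / 2 ≤ y) (y1 : y ≤ 1) (z0 : 1 ≤ z) (z1 : z ≤ 2) :
    0 ≤ Coef.val kppL [x, y, z] := by
  rcases le_total z (3 / 2 : ℝ) with h | h
  ·
    rcases le_total x (3 / 4 : ℝ) with h | h
    ·
      rcases le_total y (3 / 4 : ℝ) with h | h
      ·
        exact box_seg (2) (3) (4) (2) (3) (4) (2) (3) (2) (l := kppL) (by decide +kernel) (by norm_num)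
          (by push_cast; linarith) (by push_cast; linarith) (by push_cast; linarith) (by push_cast; linarith) (by push_cast; linarith) (by push_cast; linarith)
      ·
        exact box_seg (2) (3) (4) (3) (4) (4) (2) (3) (2) (l := kppL) (by decide +kernel) (by norm_num)
          (by push_cast; linarith) (by push_cast; linarith) (by push_cast; linarith) (by push_cast; linarith) (by push_cast; linarith) (by push_cast; linarith)
    ·
      rcases le_total y (3 / 4 : ℝ) with h | h
      ·
        exact box_seg (3) (4) (4) (2) (3) (4) (2) (3) (2) (l := kppL) (by decide +kernel) (by norm_num)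
          (by push_cast; linarith) (by push_cast; linarith) (by push_cast; linarith) (by push_cast; linarith) (by push_cast; linarith) (by push_cast; linarith)
      ·
        exact box_seg (3) (4) (4) (3) (4) (4) (2) (3) (2) (l := kppL) (by decide +kernel) (by norm_num)
          (by push_cast; linarith) (by push_cast; linarith) (by push_cast; linarith) (by push_cast; linarith) (by push_cast; linarith) (by push_cast; linarith)
  ·
    rcases le_total x (3 / 4 : ℝ) with h | h
    ·
      exact box_seg (2) (3) (4) (1) (2) (2) (3) (4) (2) (l := kppL) (by decide +kernel) (by norm_num)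
        (by push_cast; linarith) (by push_cast; linarith) (by push_cast; linarith) (by push_cast; linarith) (by push_cast; linarith) (by push_cast; linarith)
    ·
      rcases le_total y (3 / 4 : ℝ) with h | h
      ·
        exact box_seg (3) (4) (4) (2) (3) (4) (3) (4) (2) (l := kppL) (by decide +kernel) (by norm_num)
          (by push_cast; linarith) (by push_cast; linarith) (by push_cast; linarith) (by push_cast; linarith) (by push_cast; linarith) (by push_cast; linarith)
      ·
        rcases le_total z (7 / 4 : ℝ) with h | h
        ·
          exact box_seg (3) (4) (4) (3) (4) (4) (6) (7) (4) (l := kppL) (by decide +kernel) (by norm_num)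
            (by push_cast; linarith) (by push_cast; linarith) (by push_cast; linarith) (by push_cast; linarith) (by push_cast; linarith) (by push_cast; linarith)
        ·
          exact box_seg (3) (4) (4) (3) (4) (4) (7) (8) (4) (l := kppL) (by decide +kernel) (by norm_num)
            (by push_cast; linarith) (by push_cast; linarith) (by push_cast; linarith) (by push_cast; linarith) (by push_cast; linarith) (by push_cast; linarith)

theorem kppL_part6 {x y z : ℝ} (x0 : -1 ≤ x) (x1 : x ≤ 1) (y0 : -1 ≤ y) (y1 : y ≤ 1) (z0 : 2 ≤ z) :
    0 ≤ Coef.val kppL [x, y, z] := by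
  exact box_tail (-1) (1) (1) (-1) (1) (1) (2) (l := kppL) (by decide +kernel) (by norm_num)
    (by push_cast; linarith) (by push_cast; linarith) (by push_cast; linarith) (by push_cast; linarith) (by push_cast; linarith)

theorem kppL_nonneg {x y z : ℝ} (x0 : -1 ≤ x) (x1 : x ≤ 1) (y0 : -1 ≤ y) (y1 : y ≤ 1) (z0 : 0 ≤ z) :
    0 ≤ Coef.val kppL [x, y, z] := by
  rcases le_total z (1 : ℝ) with h | h
  ·
    exact kppL_part0 (by linarith) (by linarith) (by linarith) (by linarith) (by linarith) (by linarith)
  ·
    rcases le_total z (2 : ℝ) with h | h
    ·
      rcases le_total x (0 : ℝ) with h | h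
      ·
        exact kppL_part1 (by linarith) (by linarith) (by linarith) (by linarith) (by linarith) (by linarith)
      ·
        rcases le_total y (0 : ℝ) with h | h
        ·
          exact kppL_part2 (by linarith) (by linarith) (by linarith) (by linarith) (by linarith) (by linarith)
        ·
          rcases le_total x (1 / 2 : ℝ) with h | h
          ·
            exact kppL_part3 (by linarith) (by linarith) (by linarith) (by linarith) (by linarith) (by linarith)
          ·
            rcases le_total y (1 / 2 : ℝ) with h | h
            ·
              exact kppL_part4 (by linarith) (by linarith) (by linarith) (by linarith) (by linarith) (by linarith)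
            ·
              exact kppL_part5 (by linarith) (by linarith) (by linarith) (by linarith) (by linarith) (by linarith)
    ·
      exact kppL_part6 (by linarith) (by linarith) (by linarith) (by linarith) (by linarith)

/-- The symmetrised kernel with fixed signs. -/
def kpmL : List (List (List ℤ)) :=
  [[[6000, 0, 13280, 0, 1540, 0, 1600],
    [0, -16880, -1892, -7986, 0, -990],
    [6000, 0, 582, 0, 220],
    [0, 0, 946]],
   [[0, -16880, 1892, -7986, 0, -990],
    [0, 0, 35460, 0, -11898],
    [0, -9850, -946, 10497]],
   [[6000, 0, 582, 0, 220],
    [0, -9850, 946, 10497],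
    [0, 0, -7568]],
   [[0, 0, -946]]]

theorem kpmL_part0 {x y z : ℝ} (x0 : -1 ≤ x) (x1 : x ≤ 1) (y0 : -1 ≤ y) (y1 : y ≤ 1) (z0 : 0 ≤ z) (z1 : z ≤ 1) :
    0 ≤ Coef.val kpmL [x, y, z] := by
  rcases le_total x (0 : ℝ) with h | h
  ·
    exact box_seg (-1) (0) (1) (-1) (1) (1) (0) (1) (1) (l := kpmL) (by decide +kernel) (by norm_num)
      (by push_cast; linarith) (by push_cast; linarith) (by push_cast; linarith) (by push_cast; linarith) (by push_cast; linarith) (by push_cast; linarith)
  ·
    rcases le_total y (0 : ℝ) with h | h
    ·
      exact box_seg (0) (1) (1) (-1) (0) (1) (0) (1) (1) (l := kpmL) (by decide +kernel) (by norm_num)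
        (by push_cast; linarith) (by push_cast; linarith) (by push_cast; linarith) (by push_cast; linarith) (by push_cast; linarith) (by push_cast; linarith)
    ·
      rcases le_total x (1 / 2 : ℝ) with h | h
      ·
        exact box_seg (0) (1) (2) (0) (1) (1) (0) (1) (1) (l := kpmL) (by decide +kernel) (by norm_num)
          (by push_cast; linarith) (by push_cast; linarith) (by push_cast; linarith) (by push_cast; linarith) (by push_cast; linarith) (by push_cast; linarith)
      ·
        rcases le_total y (1 / 2 : ℝ) with h | h
        ·
          exact box_seg (1) (2) (2) (0) (1) (2) (0) (1) (1) (l := kpmL) (by decide +kernel) (by norm_num)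
            (by push_cast; linarith) (by push_cast; linarith) (by push_cast; linarith) (by push_cast; linarith) (by push_cast; linarith) (by push_cast; linarith)
        ·
          rcases le_total z (1 / 2 : ℝ) with h | h
          ·
            exact box_seg (1) (2) (2) (1) (2) (2) (0) (1) (2) (l := kpmL) (by decide +kernel) (by norm_num)
              (by push_cast; linarith) (by push_cast; linarith) (by push_cast; linarith) (by push_cast; linarith) (by push_cast; linarith) (by push_cast; linarith)
          ·
            exact box_seg (1) (2) (2) (1) (2) (2) (1) (2) (2) (l := kpmL) (by decide +kernel) (by norm_num)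
              (by push_cast; linarith) (by push_cast; linarith) (by push_cast; linarith) (by push_cast; linarith) (by push_cast; linarith) (by push_cast; linarith)

theorem kpmL_part1 {x y z : ℝ} (x0 : -1 ≤ x) (x1 : x ≤ 1) (y0 : -1 ≤ y) (y1 : y ≤ 1) (z0 : 1 ≤ z) :
    0 ≤ Coef.val kpmL [x, y, z] := by
  rcases le_total z (2 : ℝ) with h | h
  ·
    rcases le_total x (0 : ℝ) with h | h
    ·
      exact box_seg (-1) (0) (1) (-1) (1) (1) (1) (2) (1) (l := kpmL) (by decide +kernel) (by norm_num)
        (by push_cast; linarith) (by push_cast; linarith) (by push_cast; linarith) (by push_cast; linarith) (by push_cast; linarith) (by push_cast; linarith)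
    ·
      rcases le_total y (0 : ℝ) with h | h
      ·
        exact box_seg (0) (1) (1) (-1) (0) (1) (1) (2) (1) (l := kpmL) (by decide +kernel) (by norm_num)
          (by push_cast; linarith) (by push_cast; linarith) (by push_cast; linarith) (by push_cast; linarith) (by push_cast; linarith) (by push_cast; linarith)
      ·
        rcases le_total x (1 / 2 : ℝ) with h | h
        ·
          exact box_seg (0) (1) (2) (0) (1) (1) (1) (2) (1) (l := kpmL) (by decide +kernel) (by norm_num)
            (by push_cast; linarith) (by push_cast; linarith) (by push_cast; linarith) (by push_cast; linarith) (by push_cast; linarith) (by push_cast; linarith)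
        ·
          rcases le_total y (1 / 2 : ℝ) with h | h
          ·
            exact box_seg (1) (2) (2) (0) (1) (2) (1) (2) (1) (l := kpmL) (by decide +kernel) (by norm_num)
              (by push_cast; linarith) (by push_cast; linarith) (by push_cast; linarith) (by push_cast; linarith) (by push_cast; linarith) (by push_cast; linarith)
          ·
            rcases le_total z (3 / 2 : ℝ) with h | h
            ·
              exact box_seg (1) (2) (2) (1) (2) (2) (2) (3) (2) (l := kpmL) (by decide +kernel) (by norm_num)
                (by push_cast; linarith) (by push_cast; linarith) (by push_cast; linarith) (by push_cast; linarith) (by push_cast; linarith) (by push_cast; linarith)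
            ·
              exact box_seg (1) (2) (2) (1) (2) (2) (3) (4) (2) (l := kpmL) (by decide +kernel) (by norm_num)
                (by push_cast; linarith) (by push_cast; linarith) (by push_cast; linarith) (by push_cast; linarith) (by push_cast; linarith) (by push_cast; linarith)
  ·
    exact box_tail (-1) (1) (1) (-1) (1) (1) (2) (l := kpmL) (by decide +kernel) (by norm_num)
      (by push_cast; linarith) (by push_cast; linarith) (by push_cast; linarith) (by push_cast; linarith) (by push_cast; linarith)

theorem kpmL_nonneg {x y z : ℝ} (x0 : -1 ≤ x) (x1 : x ≤ 1) (y0 : -1 ≤ y) (y1 : y ≤ 1) (z0 : 0 ≤ z) :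
    0 ≤ Coef.val kpmL [x, y, z] := by
  rcases le_total z (1 : ℝ) with h | h
  ·
    exact kpmL_part0 (by linarith) (by linarith) (by linarith) (by linarith) (by linarith) (by linarith)
  ·
    exact kpmL_part1 (by linarith) (by linarith) (by linarith) (by linarith) (by linarith)

/-- The symmetrised kernel with fixed signs. -/
def kmmL : List (List (List ℤ)) :=
  [[[6000, 3940, 13280, -1322, 1540, 0, 1600],
    [0, -16880, 1892, -7986, 0, -990],
    [6000, -1970, 582, 661, 220],
    [0, 0, -946]],
   [[0, -16880, 1892, -7986, 0, -990],
    [0, 0, 35460, 0, -11898],
    [0, -9850, -946, 10497]],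
   [[6000, -1970, 582, 661, 220],
    [0, -9850, -946, 10497],
    [0, 0, -7568]],
   [[0, 0, -946]]]

theorem kmmL_part0 {x y z : ℝ} (x0 : -1 ≤ x) (x1 : x ≤ 1) (y0 : -1 ≤ y) (y1 : y ≤ 1) (z0 : 0 ≤ z) (z1 : z ≤ 1) :
    0 ≤ Coef.val kmmL [x, y, z] := by
  rcases le_total x (0 : ℝ) with h | h
  ·
    exact box_seg (-1) (0) (1) (-1) (1) (1) (0) (1) (1) (l := kmmL) (by decide +kernel) (by norm_num)
      (by push_cast; linarith) (by push_cast; linarith) (by push_cast; linarith) (by push_cast; linarith) (by push_cast; linarith) (by push_cast; linarith)
  ·
    rcases le_total y (0 : ℝ) with h | h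
    ·
      exact box_seg (0) (1) (1) (-1) (0) (1) (0) (1) (1) (l := kmmL) (by decide +kernel) (by norm_num)
        (by push_cast; linarith) (by push_cast; linarith) (by push_cast; linarith) (by push_cast; linarith) (by push_cast; linarith) (by push_cast; linarith)
    ·
      rcases le_total x (1 / 2 : ℝ) with h | h
      ·
        exact box_seg (0) (1) (2) (0) (1) (1) (0) (1) (1) (l := kmmL) (by decide +kernel) (by norm_num)
          (by push_cast; linarith) (by push_cast; linarith) (by push_cast; linarith) (by push_cast; linarith) (by push_cast; linarith) (by push_cast; linarith)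
      ·
        rcases le_total y (1 / 2 : ℝ) with h | h
        ·
          exact box_seg (1) (2) (2) (0) (1) (2) (0) (1) (1) (l := kmmL) (by decide +kernel) (by norm_num)
            (by push_cast; linarith) (by push_cast; linarith) (by push_cast; linarith) (by push_cast; linarith) (by push_cast; linarith) (by push_cast; linarith)
        ·
          rcases le_total z (1 / 2 : ℝ) with h | h
          ·
            exact box_seg (1) (2) (2) (1) (2) (2) (0) (1) (2) (l := kmmL) (by decide +kernel) (by norm_num)
              (by push_cast; linarith) (by push_cast; linarith) (by push_cast; linarith) (by push_cast; linarith) (by push_cast; linarith) (by push_cast; linarith)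
          ·
            exact box_seg (1) (2) (2) (1) (2) (2) (1) (2) (2) (l := kmmL) (by decide +kernel) (by norm_num)
              (by push_cast; linarith) (by push_cast; linarith) (by push_cast; linarith) (by push_cast; linarith) (by push_cast; linarith) (by push_cast; linarith)

theorem kmmL_part1 {x y z : ℝ} (x0 : -1 ≤ x) (x1 : x ≤ 1) (y0 : -1 ≤ y) (y1 : y ≤ 1) (z0 : 1 ≤ z) :
    0 ≤ Coef.val kmmL [x, y, z] := by
  rcases le_total z (2 : ℝ) with h | h
  ·
    rcases le_total x (0 : ℝ) with h | h
    ·
      exact box_seg (-1) (0) (1) (-1) (1) (1) (1) (2) (1) (l := kmmL) (by decide +kernel) (by norm_num)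
        (by push_cast; linarith) (by push_cast; linarith) (by push_cast; linarith) (by push_cast; linarith) (by push_cast; linarith) (by push_cast; linarith)
    ·
      rcases le_total y (0 : ℝ) with h | h
      ·
        exact box_seg (0) (1) (1) (-1) (0) (1) (1) (2) (1) (l := kmmL) (by decide +kernel) (by norm_num)
          (by push_cast; linarith) (by push_cast; linarith) (by push_cast; linarith) (by push_cast; linarith) (by push_cast; linarith) (by push_cast; linarith)
      ·
        rcases le_total x (1 / 2 : ℝ) with h | h
        ·
          exact box_seg (0) (1) (2) (0) (1) (1) (1) (2) (1) (l := kmmL) (by decide +kernel) (by norm_num)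
            (by push_cast; linarith) (by push_cast; linarith) (by push_cast; linarith) (by push_cast; linarith) (by push_cast; linarith) (by push_cast; linarith)
        ·
          rcases le_total y (1 / 2 : ℝ) with h | h
          ·
            exact box_seg (1) (2) (2) (0) (1) (2) (1) (2) (1) (l := kmmL) (by decide +kernel) (by norm_num)
              (by push_cast; linarith) (by push_cast; linarith) (by push_cast; linarith) (by push_cast; linarith) (by push_cast; linarith) (by push_cast; linarith)
          ·
            rcases le_total z (3 / 2 : ℝ) with h | h
            ·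
              exact box_seg (1) (2) (2) (1) (2) (2) (2) (3) (2) (l := kmmL) (by decide +kernel) (by norm_num)
                (by push_cast; linarith) (by push_cast; linarith) (by push_cast; linarith) (by push_cast; linarith) (by push_cast; linarith) (by push_cast; linarith)
            ·
              exact box_seg (1) (2) (2) (1) (2) (2) (3) (4) (2) (l := kmmL) (by decide +kernel) (by norm_num)
                (by push_cast; linarith) (by push_cast; linarith) (by push_cast; linarith) (by push_cast; linarith) (by push_cast; linarith) (by push_cast; linarith)
  ·
    exact box_tail (-1) (1) (1) (-1) (1) (1) (2) (l := kmmL) (by decide +kernel) (by norm_num)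
      (by push_cast; linarith) (by push_cast; linarith) (by push_cast; linarith) (by push_cast; linarith) (by push_cast; linarith)

theorem kmmL_nonneg {x y z : ℝ} (x0 : -1 ≤ x) (x1 : x ≤ 1) (y0 : -1 ≤ y) (y1 : y ≤ 1) (z0 : 0 ≤ z) :
    0 ≤ Coef.val kmmL [x, y, z] := by
  rcases le_total z (1 : ℝ) with h | h
  ·
    exact kmmL_part0 (by linarith) (by linarith) (by linarith) (by linarith) (by linarith) (by linarith)
  ·
    exact kmmL_part1 (by linarith) (by linarith) (by linarith) (by linarith) (by linarith)

end

end Vale.Agent.P219.Aff.Ten
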